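import Vale.Agent.P168.Defs

open MeasureTheory ProbabilityTheory Filter Topology
open scoped NNReal

namespace Vale.Agent.P168

lemma poisson_hasSum (r : ℝ≥0) :
    HasSum (fun n : ℕ => Real.exp (-r) * r ^ n / (n.factorial : ℝ) * (n : ℝ)) (r : ℝ) := by
  have h1 := (hasSum_one_poissonMeasure r).mul_left (r : ℝ)
  rw [mul_one] at h1
  have h2 : HasSum (fun n : ℕ => Real.exp (-r) * r ^ (n + 1) / ((n + 1).factorial : ℝ) *
      ((n + 1 : ℕ) : ℝ)) (r : ℝ) := by
    have h5 : (fun n : ℕ => Real.exp (-r) * r ^ (n + 1) / ((n + 1).factorial : ℝ) *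
      ((n + 1 : ℕ) : ℝ)) = fun n : ℕ => (r : ℝ) * (Real.exp (-r) * r ^ n / (n.factorial : ℝ)) := by
      funext n
      rw [Nat.factorial_succ]
      push_cast
      have : ((n : ℝ) + 1) ≠ 0 := by positivity
      have h3 : (n.factorial : ℝ) ≠ 0 := by positivity
      field_simp
      ring
    rw [h5]
    exact h1
  have h4 := (hasSum_nat_add_iff (f := fun n : ℕ =>
    Real.exp (-r) * r ^ n / (n.factorial : ℝ) * (n : ℝ)) 1).mp h2
  simpa using h4

lemma poisson_integrable (r : ℝ≥0) : Integrable (fun n : ℕ => (n : ℝ)) (poissonMeasure r) := by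
  rw [integrable_poissonMeasure_iff]
  have := (poisson_hasSum r).summable
  refine this.congr ?_
  intro n
  simp

lemma poisson_mean (r : ℝ≥0) : ∫ n : ℕ, (n : ℝ) ∂(poissonMeasure r) = r := by
  rw [integral_poissonMeasure]
  have := (poisson_hasSum r).tsum_eq
  simpa [smul_eq_mul] using this

lemma pi_dirac_zero (N : ℕ) :
    Measure.pi (fun _ : Fin N => Measure.dirac (0 : ℝ)) = Measure.dirac (fun _ => (0 : ℝ)) := by
  apply Measure.pi_eq
  intro s hs
  rw [Measure.dirac_apply' _ (MeasurableSet.univ_pi hs)]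
  simp only [Measure.dirac_apply' _ (hs _)]
  by_cases h : ∀ i, (0 : ℝ) ∈ s i
  · have : (fun _ => (0 : ℝ)) ∈ Set.pi Set.univ s := fun i _ => h i
    simp [this, h]
  · have : (fun _ => (0 : ℝ)) ∉ Set.pi Set.univ s := fun hh => h fun i => hh i trivial
    push Not at h
    obtain ⟨i, hi⟩ := h
    rw [Set.indicator_of_notMem this]
    symm
    apply Finset.prod_eq_zero (Finset.mem_univ i)
    simp [hi]

/-- A model whose factor is the deterministic function `W` with the stated properties. -/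
structure Nice (M : Model) (W : (Fin M.K → ℤˣ) → ℝ) (c : ℝ) : Prop where
  weight_eq : ∀ ω σ, M.a ω * (1 + M.b ω * ∏ i, M.f i ω (σ i)) = W σ
  pos : ∀ σ, 0 < W σ
  le : ∀ σ, W σ ≤ c
  one : W (fun _ => 1) = c
  marg : ∀ (j : Fin M.K) (ε : ℤˣ),
    ∑ σ ∈ (Finset.univ : Finset (Fin M.K → ℤˣ)).filter (fun σ => σ j = ε), W σ = 2 ^ (M.K - 1)
  field_eq : M.field = Measure.dirac 0

variable {M : Model} {W : (Fin M.K → ℤˣ) → ℝ} {c : ℝ}

lemma Nice.theta_eq (hM : Nice M W c) (ω : M.Omega) (σ : Fin M.K → ℤˣ) :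
    M.theta ω σ = Real.log (W σ) := by
  rw [Model.theta, hM.weight_eq]

lemma Nice.exp_theta (hM : Nice M W c) (ω : M.Omega) (σ : Fin M.K → ℤˣ) :
    Real.exp (M.theta ω σ) = W σ := by
  rw [hM.theta_eq, Real.exp_log (hM.pos σ)]

/-- the averaged log partition function for a given number of factors -/
noncomputable def avgLog (M : Model) (W : (Fin M.K → ℤˣ) → ℝ) (N m : ℕ) : ℝ :=
  ((N : ℝ) ^ (m * M.K))⁻¹ * ∑ idx : Fin m → Fin M.K → Fin N,
        Real.log (∑ σ : Fin N → ℤˣ, Real.exp (∑ k, Real.log (W (fun j => σ (idx k j)))))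

lemma Nice.pressure_eq (hM : Nice M W c) (N : ℕ) :
    M.pressure N = (1 / (N : ℝ)) * ∫ m : ℕ, avgLog M W N m ∂(poissonMeasure (M.rate * N)) := by
  unfold Model.pressure
  congr 2
  funext m
  have h1 : ∀ θ : Fin m → M.Omega, (∫ h : Fin N → ℝ,
      (((N : ℝ) ^ (m * M.K))⁻¹ * ∑ idx : Fin m → Fin M.K → Fin N,
        Real.log (∑ σ : Fin N → ℤˣ, Real.exp (M.hamiltonian N m θ idx h σ)))
      ∂(Measure.pi fun _ => M.field)) = avgLog M W N m := by
    intro θ
    rw [hM.field_eq, pi_dirac_zero, integral_dirac]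
    unfold avgLog Model.hamiltonian
    simp only [hM.theta_eq, zero_mul, Finset.sum_const_zero, add_zero]
  simp only [h1]
  simp

lemma Nice.avgLog_bounds (hM : Nice M W c) {N : ℕ} (hN : 1 ≤ N) (m : ℕ) :
    m * Real.log c ≤ avgLog M W N m ∧ avgLog M W N m ≤ m * Real.log c + N * Real.log 2 := by
  have hc : 0 < c := hM.one ▸ hM.pos _
  have hcard : ((Finset.univ : Finset (Fin m → Fin M.K → Fin N)).card : ℝ) = (N : ℝ) ^ (m * M.K) := by
    rw [Finset.card_univ]
    simp only [Fintype.card_fun, Fintype.card_fin]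
    push_cast
    rw [← pow_mul, mul_comm]
  have hNpos : (0 : ℝ) < (N : ℝ) ^ (m * M.K) := by
    have : (0 : ℝ) < N := by exact_mod_cast hN
    positivity
  have key : ∀ idx : Fin m → Fin M.K → Fin N,
      m * Real.log c ≤ Real.log (∑ σ : Fin N → ℤˣ,
        Real.exp (∑ k, Real.log (W (fun j => σ (idx k j))))) ∧
      Real.log (∑ σ : Fin N → ℤˣ,
        Real.exp (∑ k, Real.log (W (fun j => σ (idx k j))))) ≤ m * Real.log c + N * Real.log 2 := by
    intro idx
    have hlow : Real.exp (m * Real.log c) ≤ ∑ σ : Fin N → ℤˣ,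
        Real.exp (∑ k, Real.log (W (fun j => σ (idx k j)))) := by
      have := Finset.single_le_sum (f := fun σ : Fin N → ℤˣ =>
        Real.exp (∑ k, Real.log (W (fun j => σ (idx k j))))) (fun σ _ => (Real.exp_pos _).le)
        (Finset.mem_univ (fun _ => (1 : ℤˣ)))
      refine le_trans (le_of_eq ?_) this
      simp only [hM.one]
      simp
    have hup : ∑ σ : Fin N → ℤˣ, Real.exp (∑ k, Real.log (W (fun j => σ (idx k j)))) ≤
        Real.exp (m * Real.log c + N * Real.log 2) := by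
      have : ∀ σ : Fin N → ℤˣ, Real.exp (∑ k, Real.log (W (fun j => σ (idx k j)))) ≤
          Real.exp (m * Real.log c) := by
        intro σ
        apply Real.exp_le_exp.mpr
        calc ∑ k, Real.log (W (fun j => σ (idx k j))) ≤ ∑ k : Fin m, Real.log c :=
              Finset.sum_le_sum fun k _ => Real.log_le_log (hM.pos _) (hM.le _)
          _ = m * Real.log c := by simp
      calc _ ≤ ∑ σ : Fin N → ℤˣ, Real.exp (m * Real.log c) := Finset.sum_le_sum fun σ _ => this σ
        _ = Real.exp (m * Real.log c + N * Real.log 2) := by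
          rw [Finset.sum_const, Finset.card_univ, Fintype.card_fun, Fintype.card_fin,
            Real.exp_add, Real.exp_nat_mul (Real.log 2) N, Real.exp_log (by norm_num)]
          simp [mul_comm]
    have hpos : 0 < ∑ σ : Fin N → ℤˣ, Real.exp (∑ k, Real.log (W (fun j => σ (idx k j)))) :=
      lt_of_lt_of_le (Real.exp_pos _) hlow
    exact ⟨(Real.le_log_iff_exp_le hpos).mpr hlow, (Real.log_le_iff_le_exp hpos).mpr hup⟩
  unfold avgLog
  constructor
  · have := Finset.card_nsmul_le_sum (Finset.univ : Finset (Fin m → Fin M.K → Fin N)) _ _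
      (fun idx _ => (key idx).1)
    rw [nsmul_eq_mul, hcard] at this
    rw [inv_mul_eq_div, le_div_iff₀ hNpos]
    linarith
  · have := Finset.sum_le_card_nsmul (Finset.univ : Finset (Fin m → Fin M.K → Fin N)) _ _
      (fun idx _ => (key idx).2)
    rw [nsmul_eq_mul, hcard] at this
    rw [inv_mul_eq_div, div_le_iff₀ hNpos]
    linarith

lemma Nice.le_pressure (hM : Nice M W c) (hc : 1 ≤ c) {N : ℕ} (hN : 1 ≤ N) :
    M.rate * Real.log c ≤ M.pressure N := by
  rw [hM.pressure_eq]
  have hlc : 0 ≤ Real.log c := Real.log_nonneg hc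
  have hN0 : (0 : ℝ) < N := by exact_mod_cast hN
  have hint1 : Integrable (fun m : ℕ => (m : ℝ) * Real.log c) (poissonMeasure (M.rate * N)) :=
    (poisson_integrable _).mul_const _
  have hint2 : Integrable (fun m : ℕ => avgLog M W N m) (poissonMeasure (M.rate * N)) := by
    refine Integrable.mono' (hint1.add (integrable_const (N * Real.log 2))) ?_ ?_
    · exact (measurable_of_countable _).aestronglyMeasurable
    · refine Eventually.of_forall fun m => ?_
      have := hM.avgLog_bounds hN m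
      have h0 : 0 ≤ (m : ℝ) * Real.log c := by positivity
      rw [Real.norm_eq_abs, abs_of_nonneg (le_trans h0 this.1)]
      exact this.2
  have h := integral_mono hint1 hint2 (fun m => (hM.avgLog_bounds hN m).1)
  rw [integral_mul_const, poisson_mean] at h
  push_cast at h
  rw [one_div, inv_mul_eq_div, le_div_iff₀ hN0]
  linarith

lemma Nice.marg_half (hM : Nice M W c) (j : Fin M.K) (ε : ℤˣ) :
    ∑ σ ∈ (Finset.univ : Finset (Fin M.K → ℤˣ)).filter (fun σ => σ j = ε),
      W σ * (1 / 2) ^ (M.K - 1) = 1 := by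
  rw [← Finset.sum_mul, hM.marg, ← mul_pow]
  norm_num

lemma Nice.U_zero (hM : Nice M W c) (n : ℕ) (θ : Fin n → M.Omega) (pos : Fin n → Fin M.K) :
    M.U n θ pos 0 (fun _ _ => 0) = 2 := by
  unfold Model.U
  have h1 : ∀ (k : Fin n) (ε : ℤˣ),
      ∑ σ ∈ (Finset.univ : Finset (Fin M.K → ℤˣ)).filter (fun σ => σ (pos k) = ε),
      Real.exp (M.theta (θ k) σ) *
        ∏ j ∈ Finset.univ.erase (pos k), (1 + (0 : ℝ) * spin (σ j)) / 2 = 1 := by
    intro k ε
    refine Eq.trans ?_ (hM.marg_half (pos k) ε)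
    apply Finset.sum_congr rfl
    intro σ _
    rw [hM.exp_theta]
    congr 1
    simp only [zero_mul, add_zero]
    rw [Finset.prod_const, Finset.card_erase_of_mem (Finset.mem_univ _), Finset.card_univ,
      Fintype.card_fin]
  simp only [h1]
  simp

lemma Nice.V_zero (hM : Nice M W c) (n : ℕ) (θ : Fin n → M.Omega) :
    M.V n θ (fun _ _ => 0) = 1 := by
  unfold Model.V
  have hK : 0 < M.K := lt_of_lt_of_le (by norm_num) M.K_two
  have h1 : ∀ (k : Fin n),
      ∑ σ : Fin M.K → ℤˣ, Real.exp (M.theta (θ k) σ) * ∏ j, (1 + (0 : ℝ) * spin (σ j)) / 2 = 1 := by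
    intro k
    have h2 : ∀ σ : Fin M.K → ℤˣ,
        Real.exp (M.theta (θ k) σ) * ∏ j, (1 + (0 : ℝ) * spin (σ j)) / 2 =
        (1 / 2) * (W σ * (1 / 2) ^ (M.K - 1)) := by
      intro σ
      rw [hM.exp_theta]
      simp only [zero_mul, add_zero]
      rw [Finset.prod_const, Finset.card_univ, Fintype.card_fin]
      obtain ⟨K', hK'⟩ : ∃ K', M.K = K' + 1 := ⟨M.K - 1, by omega⟩
      rw [hK', Nat.add_sub_cancel, pow_succ]
      ring
    simp only [h2]
    rw [← Finset.mul_sum]
    have h3 : ∑ σ : Fin M.K → ℤˣ, W σ * (1 / 2) ^ (M.K - 1) =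
        ∑ ε : ℤˣ, ∑ σ ∈ (Finset.univ : Finset (Fin M.K → ℤˣ)).filter
          (fun σ => σ ⟨0, hK⟩ = ε), W σ * (1 / 2) ^ (M.K - 1) := by
      rw [Finset.sum_fiberwise]
    rw [h3]
    simp only [hM.marg_half]
    simp
  simp only [h1, Finset.prod_const_one]

lemma bottom_zero {A : Type} [MeasureSpace A] (m : ℕ → ℝ) (Y : (ℕ → A) → ℝ) :
    bottom 0 m Y = Y := by
  simp [bottom]

lemma Nice.TU_zero (hM : Nice M W c) (m : ℕ → ℝ) : M.TU 0 m (fun _ => 0) = Real.log 2 := by
  unfold Model.TU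
  have hK : (0 : ℝ) < M.K := by
    have := M.K_two
    exact_mod_cast (by omega : 0 < M.K)
  simp only [bottom_zero]
  have h1 : ∀ (n : ℕ) (θ : Fin n → M.Omega), (∫ h : ℝ,
      (((M.K : ℝ) ^ n)⁻¹ * ∑ pos : Fin n → Fin M.K, ∫ u : Fin n → Fin M.K → unitInterval,
        Real.log (M.U n θ pos h (fun k j => 0)))
      ∂M.field) = Real.log 2 := by
    intro n θ
    rw [hM.field_eq, integral_dirac]
    simp only [hM.U_zero]
    simp only [integral_const, probReal_univ, smul_eq_mul, one_mul, Finset.sum_const,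
      Finset.card_univ, Fintype.card_fun, Fintype.card_fin, nsmul_eq_mul]
    push_cast
    have : ((M.K : ℝ) ^ n) ≠ 0 := by positivity
    field_simp
  simp only [h1]
  simp

lemma Nice.TV_zero (hM : Nice M W c) (m : ℕ → ℝ) : M.TV 0 m (fun _ => 0) = 0 := by
  unfold Model.TV
  simp only [bottom_zero, hM.V_zero]
  simp

lemma Nice.log_two_mem (hM : Nice M W c) : Real.log 2 ∈ M.trialValues := by
  refine ⟨0, fun _ => 0, fun _ => 0, ?_, ?_, measurable_const, ?_, ?_⟩
  · intro i h1 h2; omega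
  · intro i j h1 h2 h3; omega
  · intro u; simp
  · rw [hM.TU_zero, hM.TV_zero, sub_zero]

lemma Model.Gap.not_mezardParisi {M : Model} (h : M.Gap) : ¬ M.MezardParisi := by
  rintro ⟨L, hL, hG⟩
  obtain ⟨v, hv, c, hvc, hc⟩ := h
  have h1 : L ≤ v := hG.1 hv
  have h2 : c ≤ L := by
    refine ge_of_tendsto hL ?_
    filter_upwards [eventually_ge_atTop 1] with N hN
    exact hc N hN
  linarith

lemma Nice.gap (hM : Nice M W (3 / 2)) (hr : M.rate = 2) : M.Gap := by
  refine ⟨Real.log 2, hM.log_two_mem, 2 * Real.log (3 / 2), ?_, ?_⟩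
  · have : 2 * Real.log (3 / 2) = Real.log ((3 / 2) ^ 2) := by
      rw [Real.log_pow]; norm_num
    rw [this]
    apply Real.log_lt_log <;> norm_num
  · intro N hN
    have := hM.le_pressure (by norm_num) hN
    rw [hr] at this
    simpa using this

end Vale.Agent.P168
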