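import Mathlib

open MeasureTheory ProbabilityTheory Filter Topology
open scoped NNReal

namespace Vale.Agent.P168

/-- A diluted model, exactly with the data and the hypotheses written in the setting of the
problem. Spins are elements of `ℤˣ = {1, -1}`.

* `K` is even and at least `2`; `rate` is `lambda > 0`.
* `(Omega, P)` carries one copy of the random function `theta`: the random variables `a`, `b` and
  the random functions `f i : {-1, 1} → [-1, 1]`, `i < K`, with `a > 0`, `b ∈ (-1, 1)` and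
  `E (-b) ^ n ≥ 0` for all `n ≥ 1`.
* `field` is the law of the random field `h`, with `E |h| < ∞`; and `E max |theta| < ∞`. -/
structure Model where
  K : ℕ
  K_even : Even K
  K_two : 2 ≤ K
  rate : ℝ≥0
  rate_pos : 0 < rate
  Omega : Type
  [mOmega : MeasurableSpace Omega]
  P : Measure Omega
  [prob : IsProbabilityMeasure P]
  a : Omega → ℝ
  b : Omega → ℝ
  f : Fin K → Omega → (ℤˣ → ℝ)
  a_meas : Measurable a
  b_meas : Measurable b
  f_meas : ∀ i, Measurable (f i)
  a_pos : ∀ ω, 0 < a ω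
  b_mem : ∀ ω, b ω ∈ Set.Ioo (-1 : ℝ) 1
  f_mem : ∀ i ω s, f i ω s ∈ Set.Icc (-1 : ℝ) 1
  positivity : ∀ n : ℕ, 1 ≤ n → 0 ≤ ∫ ω, (-(b ω)) ^ n ∂P
  theta_int : Integrable (fun ω => ⨆ σ : Fin K → ℤˣ,
    |Real.log (a ω * (1 + b ω * ∏ i, f i ω (σ i)))|) P
  field : Measure ℝ
  [field_prob : IsProbabilityMeasure field]
  field_int : Integrable (fun x : ℝ => |x|) field

attribute [instance] Model.mOmega Model.prob Model.field_prob

/-- The real value of a spin. -/
def spin (s : ℤˣ) : ℝ := ((s : ℤ) : ℝ)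

/-- The random function `theta`, so that
`exp (theta) = a * (1 + b * f_1(σ_1) * ... * f_K(σ_K))`. -/
noncomputable def Model.theta (M : Model) (ω : M.Omega) (σ : Fin M.K → ℤˣ) : ℝ :=
  Real.log (M.a ω * (1 + M.b ω * ∏ i, M.f i ω (σ i)))

/-- The Hamiltonian with `m` factors `theta_k`, indices `idx k j` and fields `h i`. -/
noncomputable def Model.hamiltonian (M : Model) (N m : ℕ) (θ : Fin m → M.Omega)
    (idx : Fin m → Fin M.K → Fin N) (h : Fin N → ℝ) (σ : Fin N → ℤˣ) : ℝ :=
  ∑ k, M.theta (θ k) (fun j => σ (idx k j)) + ∑ i, h i * spin (σ i)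

/-- The pressure `F_N = (1/N) E log ∑_σ exp H_N(σ)`: the number `m` of factors is Poisson of mean
`lambda * N`, the `m` factors are independent copies of `theta`, the `N` fields are independent
copies of `h`, and the indices are independent and uniform (average over all index maps). -/
noncomputable def Model.pressure (M : Model) (N : ℕ) : ℝ :=
  (1 / (N : ℝ)) * ∫ m : ℕ, (∫ θ : Fin m → M.Omega, (∫ h : Fin N → ℝ,
      (((N : ℝ) ^ (m * M.K))⁻¹ * ∑ idx : Fin m → Fin M.K → Fin N,
        Real.log (∑ σ : Fin N → ℤˣ, Real.exp (M.hamiltonian N m θ idx h σ)))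
      ∂(Measure.pi fun _ => M.field)) ∂(Measure.pi fun _ => M.P))
    ∂(poissonMeasure (M.rate * N))

/-- The step `Y_p ↦ Y_{p-1} = (E_p Y_p ^ m) ^ (1/m)`. Here `w q` are the level-`q` variables of
all messages (an element of `A`, with its probability measure), and `E_p` integrates over the
level-`p` variables only. -/
noncomputable def step {A : Type} [MeasureSpace A] (p : ℕ) (m : ℝ) (Y : (ℕ → A) → ℝ) :
    (ℕ → A) → ℝ :=
  fun w => (∫ u : A, (Y (Function.update w p u)) ^ m) ^ (1 / m)

/-- `Y_0`, obtained from `Y_r = Y` by the steps `p = r, r - 1, ..., 1` with exponents `m p`. -/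
noncomputable def bottom {A : Type} [MeasureSpace A] (r : ℕ) (m : ℕ → ℝ) (Y : (ℕ → A) → ℝ) :
    (ℕ → A) → ℝ :=
  (List.range r).foldr (fun i Z => step (i + 1) (m (i + 1)) Z) Y

/-- The variable `U` of the trial functional, for `n` factors `theta_k` with positions `pos k`, a
field `h` and messages `x k j`. -/
noncomputable def Model.U (M : Model) (n : ℕ) (θ : Fin n → M.Omega) (pos : Fin n → Fin M.K)
    (h : ℝ) (x : Fin n → Fin M.K → ℝ) : ℝ :=
  ∑ ε : ℤˣ, Real.exp (h * spin ε) *
    ∏ k, ∑ σ ∈ (Finset.univ : Finset (Fin M.K → ℤˣ)).filter (fun σ => σ (pos k) = ε),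
      Real.exp (M.theta (θ k) σ) *
        ∏ j ∈ Finset.univ.erase (pos k), (1 + x k j * spin (σ j)) / 2

/-- The variable `V` of the trial functional. -/
noncomputable def Model.V (M : Model) (n : ℕ) (θ : Fin n → M.Omega)
    (x : Fin n → Fin M.K → ℝ) : ℝ :=
  ∏ k, ∑ σ : Fin M.K → ℤˣ, Real.exp (M.theta (θ k) σ) * ∏ j, (1 + x k j * spin (σ j)) / 2

/-- `T U = E log U_0`, the outer expectation being over the Poisson number of factors (mean
`K * lambda`), the factors, the field, the uniform positions and the level-`0` variables. The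
message `(k, j)` has the variables `w 0 k j, ..., w r k j`, uniform on `[0, 1]`. -/
noncomputable def Model.TU (M : Model) (r : ℕ) (m : ℕ → ℝ)
    (x : (Fin (r + 1) → unitInterval) → ℝ) : ℝ :=
  ∫ n : ℕ, (∫ θ : Fin n → M.Omega, (∫ h : ℝ,
      (((M.K : ℝ) ^ n)⁻¹ * ∑ pos : Fin n → Fin M.K, ∫ u : Fin n → Fin M.K → unitInterval,
        Real.log (bottom r m
          (fun w : ℕ → (Fin n → Fin M.K → unitInterval) =>
            M.U n θ pos h (fun k j => x (fun p => w p k j))) (fun _ => u)))
      ∂M.field) ∂(Measure.pi fun _ => M.P)) ∂(poissonMeasure (M.K * M.rate))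

/-- `T V = E log V_0`, with a Poisson number of factors of mean `(K - 1) * lambda`. -/
noncomputable def Model.TV (M : Model) (r : ℕ) (m : ℕ → ℝ)
    (x : (Fin (r + 1) → unitInterval) → ℝ) : ℝ :=
  ∫ n : ℕ, (∫ θ : Fin n → M.Omega, (∫ u : Fin n → Fin M.K → unitInterval,
        Real.log (bottom r m
          (fun w : ℕ → (Fin n → Fin M.K → unitInterval) =>
            M.V n θ (fun k j => x (fun p => w p k j))) (fun _ => u)))
      ∂(Measure.pi fun _ => M.P)) ∂(poissonMeasure ((M.K - 1 : ℕ) * M.rate))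

/-- The set of all values `T U - T V` of the trial functional, over all `r ≥ 0`, all
`0 < m_1 < ... < m_r < 1` and all measurable `x : [0,1]^(r+1) → [-1,1]`. Its infimum is
`inf_{r ≥ 0} Phi_r`. -/
def Model.trialValues (M : Model) : Set ℝ :=
  {v | ∃ (r : ℕ) (m : ℕ → ℝ) (x : (Fin (r + 1) → unitInterval) → ℝ),
    (∀ i, 1 ≤ i → i ≤ r → 0 < m i ∧ m i < 1) ∧
    (∀ i j, 1 ≤ i → i < j → j ≤ r → m i < m j) ∧
    Measurable x ∧ (∀ u, x u ∈ Set.Icc (-1 : ℝ) 1) ∧ v = M.TU r m x - M.TV r m x}

/-- The Mézard–Parisi formula for the model: `lim F_N` exists and equals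
`inf_{r ≥ 0} Phi_r`. -/
def Model.MezardParisi (M : Model) : Prop :=
  ∃ L : ℝ, Tendsto M.pressure atTop (𝓝 L) ∧ IsGLB M.trialValues L

/-- The formula fails, with a quantitative gap: some value `v` of the trial functional is smaller
than a constant `c` which is a lower bound of `F_N` for all `N ≥ 1`. -/
def Model.Gap (M : Model) : Prop :=
  ∃ v ∈ M.trialValues, ∃ c : ℝ, v < c ∧ ∀ N : ℕ, 1 ≤ N → c ≤ M.pressure N

end Vale.Agent.P168
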