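import Vale.Agent.P168.Basic

open MeasureTheory ProbabilityTheory Filter Topology
open scoped NNReal ENNReal

namespace Vale.Agent.P168

/-- Real sign of a Boolean. -/
def sg (x : Bool) : ℝ := if x then 1 else -1

lemma sg_sq (x : Bool) : sg x * sg x = 1 := by cases x <;> simp [sg]

lemma spin_sq (s : ℤˣ) : spin s * spin s = 1 := by
  rcases Int.units_eq_one_or s with h | h <;> simp [h, spin]

lemma unif_apply {α : Type} [Fintype α] [DecidableEq α] [MeasurableSpace α]
    [MeasurableSingletonClass α] (p : α → Bool) :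
    uniformOn (Set.univ : Set α) {ω | p ω = true} =
      ((Finset.univ.filter (fun ω => p ω = true)).card : ℝ≥0∞) / Fintype.card α := by
  rw [uniformOn_univ]
  congr 1
  rw [← Measure.count_apply_finset]
  congr 1
  ext ω
  simp

lemma indep_of_card {X Y : Bool × Bool → Bool}
    (h : ∀ χ χ' : Bool → Bool,
      (Finset.univ.filter (fun ω => (χ (X ω) && χ' (Y ω)) = true)).card * 4 =
      (Finset.univ.filter (fun ω => χ (X ω) = true)).card *
      (Finset.univ.filter (fun ω => χ' (Y ω) = true)).card) :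
    IndepFun X Y (uniformOn (Set.univ : Set (Bool × Bool))) := by
  classical
  rw [indepFun_iff_measure_inter_preimage_eq_mul]
  intro s t _ _
  have h1 : X ⁻¹' s = {ω | (fun ω => (fun b : Bool => decide (b ∈ s)) (X ω)) ω = true} := by
    ext ω; simp
  have h2 : Y ⁻¹' t = {ω | (fun ω => (fun b : Bool => decide (b ∈ t)) (Y ω)) ω = true} := by
    ext ω; simp
  have h3 : X ⁻¹' s ∩ Y ⁻¹' t = {ω | (fun ω => ((fun b : Bool => decide (b ∈ s)) (X ω) &&
    (fun b : Bool => decide (b ∈ t)) (Y ω))) ω = true} := by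
    ext ω; simp
  rw [h3, h1, h2, unif_apply, unif_apply, unif_apply]
  have h4 := h (fun b : Bool => decide (b ∈ s)) (fun b : Bool => decide (b ∈ t))
  have hc : Fintype.card (Bool × Bool) = 4 := by decide
  rw [hc]
  generalize (Finset.univ.filter (fun ω => ((fun b : Bool => decide (b ∈ s)) (X ω) &&
    (fun b : Bool => decide (b ∈ t)) (Y ω)) = true)).card = A at h4 ⊢
  generalize (Finset.univ.filter (fun ω => (fun b : Bool => decide (b ∈ s)) (X ω) = true)).card
    = B at h4 ⊢
  generalize (Finset.univ.filter (fun ω => (fun b : Bool => decide (b ∈ t)) (Y ω) = true)).card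
    = C at h4 ⊢
  have h5 : (A : ℝ≥0∞) * 4 = B * C := by exact_mod_cast h4
  have h6 : (A : ℝ≥0∞) = B * C / 4 := by
    rw [ENNReal.eq_div_iff (by norm_num) (by norm_num), mul_comm]
    exact h5
  rw [h6]
  push_cast
  simp only [div_eq_mul_inv]
  ring

lemma iIndep_two {α : Type} [MeasurableSpace α] {P : Measure α} [IsProbabilityMeasure P]
    {β : Type} [MeasurableSpace β] {f : Fin 2 → α → β} (h : IndepFun (f 0) (f 1) P) :
    iIndepFun f P := by
  rw [iIndepFun_iff_measure_inter_preimage_eq_mul]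
  intro S sets hs
  have hS : S = ∅ ∨ S = {0} ∨ S = {1} ∨ S = {0, 1} := by
    clear hs
    revert S
    decide
  rcases hS with rfl | rfl | rfl | rfl
  · simp
  · simp
  · simp
  · simp only [Finset.mem_insert, Finset.mem_singleton, Set.iInter_iInter_eq_or_left,
      Set.iInter_iInter_eq_left]
    rw [Finset.prod_pair (by decide)]
    exact (indepFun_iff_measure_inter_preimage_eq_mul.mp h) _ _ (hs 0 (by simp)) (hs 1 (by simp))

/-- the function `s ↦ c * s` on spins -/
def lin (c : ℝ) : ℤˣ → ℝ := fun s => c * spin s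

lemma lin_mem {c : ℝ} (hc : |c| ≤ 1) (s : ℤˣ) : lin c s ∈ Set.Icc (-1 : ℝ) 1 := by
  have h := abs_le.mp hc
  rcases Int.units_eq_one_or s with h' | h' <;> simp only [lin, h', spin] <;>
    constructor <;> push_cast <;> linarith

lemma abs_sg (x : Bool) : |sg x| ≤ 1 := by cases x <;> simp [sg]

/-- The common factor `1 + σ_1 σ_2 / 2`. -/
noncomputable def Wf (σ : Fin 2 → ℤˣ) : ℝ := 1 + spin (σ 0) * spin (σ 1) / 2

lemma spin_cases (s : ℤˣ) : spin s = 1 ∨ spin s = -1 := by
  rcases Int.units_eq_one_or s with h | h <;> simp [h, spin]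

lemma Wf_pos (σ : Fin 2 → ℤˣ) : 0 < Wf σ := by
  unfold Wf
  rcases spin_cases (σ 0) with h | h <;> rcases spin_cases (σ 1) with h' | h' <;>
    rw [h, h'] <;> norm_num

lemma Wf_le (σ : Fin 2 → ℤˣ) : Wf σ ≤ 3 / 2 := by
  unfold Wf
  rcases spin_cases (σ 0) with h | h <;> rcases spin_cases (σ 1) with h' | h' <;>
    rw [h, h'] <;> norm_num

lemma Wf_marg (j : Fin 2) (ε : ℤˣ) :
    ∑ σ ∈ (Finset.univ : Finset (Fin 2 → ℤˣ)).filter (fun σ => σ j = ε), Wf σ = 2 := by
  rw [Finset.sum_filter, ← (finTwoArrowEquiv ℤˣ).symm.sum_comp, Fintype.sum_prod_type]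
  fin_cases j <;> rcases Int.units_eq_one_or ε with h | h <;>
    simp [h, Wf, spin, finTwoArrowEquiv] <;> norm_num

lemma nice_of {M : Model} (hK : M.K = 2)
    (hw : ∀ ω (σ : Fin M.K → ℤˣ), M.a ω * (1 + M.b ω * ∏ i, M.f i ω (σ i)) =
      Wf (fun i => σ (Fin.cast hK.symm i)))
    (hf : M.field = Measure.dirac 0) : Nice M (fun σ => Wf (fun i => σ (Fin.cast hK.symm i)))
      (3 / 2) := by
  cases M with
  | mk K =>
    dsimp only at hK
    subst hK
    refine ⟨hw, fun σ => Wf_pos _, fun σ => Wf_le _, ?_, ?_, hf⟩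
    · simp [Wf, spin]; norm_num
    · intro j ε
      simpa using Wf_marg j ε

section data

variable {α : Type} [MeasurableSpace α] (P : Measure α) [IsProbabilityMeasure P]

/-- A model with two-spin factors `1 + b * c0 * c1 * σ_1 * σ_2`, on a finite probability space. -/
noncomputable def mk2 [Finite α] [MeasurableSingletonClass α] (b c0 c1 : α → ℝ)
    (hb : ∀ ω, b ω ∈ Set.Ioo (-1 : ℝ) 1) (h0 : ∀ ω, |c0 ω| ≤ 1) (h1 : ∀ ω, |c1 ω| ≤ 1)
    (hpos : ∀ n : ℕ, 1 ≤ n → 0 ≤ ∫ ω, (-(b ω)) ^ n ∂P) : Model where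
  K := 2
  K_even := by decide
  K_two := le_rfl
  rate := 2
  rate_pos := by norm_num
  Omega := α
  P := P
  a := fun _ => 1
  b := b
  f := fun i ω => lin (if i = 0 then c0 ω else c1 ω)
  a_meas := measurable_const
  b_meas := measurable_of_countable _
  f_meas := fun i => measurable_of_countable _
  a_pos := fun _ => one_pos
  b_mem := hb
  f_mem := by
    intro i ω s
    apply lin_mem
    split_ifs
    · exact h0 ω
    · exact h1 ω
  positivity := hpos
  theta_int := Integrable.of_finite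
  field := Measure.dirac 0
  field_int := by
    apply integrable_dirac
    simp

end data

end Vale.Agent.P168
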