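import Vale.Agent.P168.Examples

open MeasureTheory ProbabilityTheory Filter Topology
open scoped NNReal ENNReal

namespace Vale.Agent.P168

lemma real_singleton4 (x : Bool × Bool) :
    (uniformOn (Set.univ : Set (Bool × Bool))).real {x} = 1 / 4 := by
  have h := unif_apply (α := Bool × Bool) (fun ω => decide (ω = x))
  have h1 : {ω : Bool × Bool | decide (ω = x) = true} = {x} := by ext ω; simp
  have h2 : (Finset.univ.filter (fun ω : Bool × Bool => decide (ω = x) = true)).card = 1 := by
    clear h h1
    revert x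
    decide
  have h3 : Fintype.card (Bool × Bool) = 4 := by decide
  rw [h1, h2, h3] at h
  rw [measureReal_def, h]
  norm_num

/-- Model with i.i.d. `f_1, f_2` and `b` independent of each `f_i`. -/
noncomputable def modelA : Model :=
  mk2 (uniformOn (Set.univ : Set (Bool × Bool))) (fun ω => sg ω.1 * sg ω.2 / 2)
    (fun ω => sg ω.1) (fun ω => sg ω.2)
    (by rintro ⟨x, y⟩; cases x <;> cases y <;> simp [sg] <;> norm_num)
    (fun ω => abs_sg _) (fun ω => abs_sg _)
    (by
      intro n _
      rw [integral_fintype Integrable.of_finite]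
      simp only [real_singleton4, Fintype.sum_prod_type, Fintype.sum_bool, sg]
      have h1 : |(-(1 / 2 : ℝ)) ^ n| ≤ (1 / 2) ^ n := by
        rw [abs_pow, abs_neg, abs_of_pos (by norm_num : (0 : ℝ) < 1 / 2)]
      have h2 := (abs_le.mp h1).1
      norm_num at h2 ⊢
      linarith)

/-- Deterministic model with `f_1 = -s`, `f_2 = s`, `b = -1/2`. -/
noncomputable def modelB : Model :=
  mk2 (Measure.dirac ()) (fun _ => -1 / 2) (fun _ => -1) (fun _ => 1)
    (by intro _; norm_num) (fun _ => by simp) (fun _ => by simp)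
    (by
      intro n _
      rw [integral_dirac]
      positivity)

/-- Model with `f_1 = ε s`, `f_2 = -ε s` and `b = -1/2`. -/
noncomputable def modelC : Model :=
  mk2 (uniformOn (Set.univ : Set Bool)) (fun _ => -1 / 2) (fun ω => sg ω) (fun ω => -sg ω)
    (by intro _; norm_num) (fun _ => abs_sg _) (fun _ => by rw [abs_neg]; exact abs_sg _)
    (by
      intro n _
      apply integral_nonneg
      intro ω
      positivity)

lemma nice_mk2 {α : Type} [MeasurableSpace α] (P : Measure α) [IsProbabilityMeasure P] [Finite α]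
    [MeasurableSingletonClass α] (b c0 c1 : α → ℝ)
    (hb : ∀ ω, b ω ∈ Set.Ioo (-1 : ℝ) 1) (h0 : ∀ ω, |c0 ω| ≤ 1) (h1 : ∀ ω, |c1 ω| ≤ 1)
    (hpos : ∀ n : ℕ, 1 ≤ n → 0 ≤ ∫ ω, (-(b ω)) ^ n ∂P)
    (h : ∀ ω, b ω * c0 ω * c1 ω = 1 / 2) :
    Nice (mk2 P b c0 c1 hb h0 h1 hpos) Wf (3 / 2) := by
  refine ⟨?_, Wf_pos, Wf_le, ?_, ?_, rfl⟩
  · intro ω (σ : Fin 2 → ℤˣ)
    change (1 : ℝ) * (1 + b ω * ∏ i : Fin 2, lin (if i = 0 then c0 ω else c1 ω) (σ i)) = Wf σ
    rw [Fin.prod_univ_two]
    have := h ω
    simp only [lin, Wf, if_true, one_ne_zero, if_false]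
    linear_combination (spin (σ 0) * spin (σ 1)) * this
  · simp [Wf, spin]; norm_num
  · intro j ε
    change _ = (2 : ℝ) ^ (2 - 1)
    rw [show (2 : ℝ) ^ (2 - 1) = 2 by norm_num]
    exact Wf_marg j ε

lemma gapA : modelA.Gap := by
  refine Nice.gap (nice_mk2 _ _ _ _ _ _ _ _ ?_) rfl
  rintro ⟨x, y⟩
  cases x <;> cases y <;> simp [sg] <;> norm_num

lemma gapB : modelB.Gap := by
  refine Nice.gap (nice_mk2 _ _ _ _ _ _ _ _ ?_) rfl
  intro _
  norm_num

lemma gapC : modelC.Gap := by
  refine Nice.gap (nice_mk2 _ _ _ _ _ _ _ _ ?_) rfl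
  intro x
  cases x <;> simp [sg] <;> norm_num

lemma indA01 : IndepFun (Prod.fst : Bool × Bool → Bool) Prod.snd
    (uniformOn (Set.univ : Set (Bool × Bool))) := indep_of_card (by decide)

lemma indAx0 : IndepFun (fun ω : Bool × Bool => (ω.1 == ω.2)) Prod.fst
    (uniformOn (Set.univ : Set (Bool × Bool))) := indep_of_card (by decide)

lemma indAx1 : IndepFun (fun ω : Bool × Bool => (ω.1 == ω.2)) Prod.snd
    (uniformOn (Set.univ : Set (Bool × Bool))) := indep_of_card (by decide)

lemma modelA_iIndep : iIndepFun modelA.f modelA.P := by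
  refine iIndep_two (P := uniformOn (Set.univ : Set (Bool × Bool))) (β := ℤˣ → ℝ)
    (f := fun i ω => lin (if i = 0 then sg ω.1 else sg ω.2)) ?_
  exact indA01.comp (φ := fun x => lin (sg x)) (ψ := fun x => lin (sg x))
    (measurable_of_countable _) (measurable_of_countable _)

lemma pairA (i : Fin 2) : IndepFun (fun ω : Bool × Bool => sg ω.1 * sg ω.2 / 2)
    (fun ω : Bool × Bool => lin (if i = 0 then sg ω.1 else sg ω.2))
    (uniformOn (Set.univ : Set (Bool × Bool))) := by
  have hb : (fun ω : Bool × Bool => sg ω.1 * sg ω.2 / 2) =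
      (fun x : Bool => sg x / 2) ∘ (fun ω : Bool × Bool => (ω.1 == ω.2)) := by
    funext ω
    obtain ⟨x, y⟩ := ω
    cases x <;> cases y <;> simp [sg]
  rw [hb]
  by_cases hi : i = 0
  · simp only [hi, if_true]
    exact indAx0.comp (φ := fun x => sg x / 2) (ψ := fun x => lin (sg x))
      (measurable_of_countable _) (measurable_of_countable _)
  · simp only [hi, if_false]
    exact indAx1.comp (φ := fun x => sg x / 2) (ψ := fun x => lin (sg x))
      (measurable_of_countable _) (measurable_of_countable _)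

lemma modelA_pair (i : Fin modelA.K) : IndepFun modelA.b (modelA.f i) modelA.P := pairA i

lemma map_fst_snd : Measure.map (Prod.fst : Bool × Bool → Bool)
    (uniformOn (Set.univ : Set (Bool × Bool))) =
    Measure.map Prod.snd (uniformOn (Set.univ : Set (Bool × Bool))) := by
  classical
  ext s hs
  rw [Measure.map_apply measurable_fst hs, Measure.map_apply measurable_snd hs]
  have h1 : (Prod.fst : Bool × Bool → Bool) ⁻¹' s =
      {ω | (fun ω : Bool × Bool => (fun b : Bool => decide (b ∈ s)) ω.1) ω = true} := by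
    ext ω; simp
  have h2 : (Prod.snd : Bool × Bool → Bool) ⁻¹' s =
      {ω | (fun ω : Bool × Bool => (fun b : Bool => decide (b ∈ s)) ω.2) ω = true} := by
    ext ω; simp
  rw [h1, h2, unif_apply, unif_apply]
  congr 2
  have : ∀ χ : Bool → Bool, (Finset.univ.filter (fun ω : Bool × Bool => χ ω.1 = true)).card =
    (Finset.univ.filter (fun ω : Bool × Bool => χ ω.2 = true)).card := by decide
  exact this (fun b => decide (b ∈ s))

lemma ident_coord (i j : Fin 2) :
    IdentDistrib (fun ω : Bool × Bool => lin (if i = 0 then sg ω.1 else sg ω.2))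
      (fun ω : Bool × Bool => lin (if j = 0 then sg ω.1 else sg ω.2))
      (uniformOn (Set.univ : Set (Bool × Bool))) (uniformOn (Set.univ : Set (Bool × Bool))) := by
  have hA : ∀ k : Fin 2, Measure.map
      (fun ω : Bool × Bool => lin (if k = 0 then sg ω.1 else sg ω.2))
      (uniformOn (Set.univ : Set (Bool × Bool))) =
      Measure.map (fun x : Bool => lin (sg x)) (Measure.map (Prod.fst : Bool × Bool → Bool)
      (uniformOn (Set.univ : Set (Bool × Bool)))) := by
    intro k
    by_cases hk : k = 0
    · simp only [hk, if_true]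
      rw [Measure.map_map (measurable_of_countable _) (measurable_of_countable _)]
      rfl
    · simp only [hk, if_false]
      rw [map_fst_snd, Measure.map_map (measurable_of_countable _) (measurable_of_countable _)]
      rfl
  exact ⟨(measurable_of_countable _).aemeasurable, (measurable_of_countable _).aemeasurable,
    by rw [hA, hA]⟩

lemma modelA_ident (i j : Fin modelA.K) :
    IdentDistrib (modelA.f i) (modelA.f j) modelA.P modelA.P := ident_coord i j

lemma modelB_iIndep : iIndepFun modelB.f modelB.P := by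
  refine iIndep_two (P := Measure.dirac ()) (β := ℤˣ → ℝ)
    (f := fun i _ => lin (if i = 0 then -1 else 1)) ?_
  exact indepFun_const_left _ _

lemma modelB_indep : IndepFun modelB.b (fun ω i => modelB.f i ω) modelB.P :=
  indepFun_const_left (-1 / 2 : ℝ) _

lemma modelC_indep : IndepFun modelC.b (fun ω i => modelC.f i ω) modelC.P :=
  indepFun_const_left (-1 / 2 : ℝ) _

lemma map_not : Measure.map (fun x : Bool => !x) (uniformOn (Set.univ : Set Bool)) =
    uniformOn (Set.univ : Set Bool) := by
  classical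
  ext s hs
  rw [Measure.map_apply (measurable_of_countable _) hs]
  have h1 : (fun x : Bool => !x) ⁻¹' s =
      {ω | (fun ω : Bool => (fun b : Bool => decide (b ∈ s)) (!ω)) ω = true} := by
    ext ω; simp
  have h2 : s = {ω | (fun ω : Bool => (fun b : Bool => decide (b ∈ s)) ω) ω = true} := by
    ext ω; simp
  conv_rhs => rw [h2]
  rw [h1, unif_apply, unif_apply]
  congr 2
  have : ∀ χ : Bool → Bool, (Finset.univ.filter (fun ω : Bool => χ (!ω) = true)).card =
    (Finset.univ.filter (fun ω : Bool => χ ω = true)).card := by decide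
  exact this (fun b => decide (b ∈ s))

lemma exch (e : Equiv.Perm (Fin 2)) :
    IdentDistrib (fun (ω : Bool) (i : Fin 2) => lin (if i = 0 then sg ω else -sg ω))
      (fun (ω : Bool) (i : Fin 2) => lin (if e i = 0 then sg ω else -sg ω))
      (uniformOn (Set.univ : Set Bool)) (uniformOn (Set.univ : Set Bool)) := by
  have he : e = 1 ∨ ∀ i, (e i = 0 ↔ ¬ i = 0) := by
    revert e
    decide
  refine ⟨(measurable_of_countable _).aemeasurable, (measurable_of_countable _).aemeasurable, ?_⟩
  rcases he with rfl | he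
  · rfl
  · have h1 : (fun (ω : Bool) (i : Fin 2) => lin (if e i = 0 then sg ω else -sg ω)) =
        (fun (ω : Bool) (i : Fin 2) => lin (if i = 0 then sg ω else -sg ω)) ∘
          (fun x : Bool => !x) := by
      funext ω i
      simp only [Function.comp]
      by_cases hi : i = 0
      · have : ¬ e i = 0 := by rw [he]; simpa using hi
        rw [if_neg this, if_pos hi]
        congr 1
        cases ω <;> simp [sg]
      · have : e i = 0 := by rw [he]; exact hi
        rw [if_pos this, if_neg hi]
        congr 1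
        cases ω <;> simp [sg]
    rw [h1, ← Measure.map_map (measurable_of_countable _) (measurable_of_countable _), map_not]

lemma modelC_exch (e : Equiv.Perm (Fin modelC.K)) :
    IdentDistrib (fun ω i => modelC.f i ω) (fun ω i => modelC.f (e i) ω) modelC.P modelC.P :=
  exch e

theorem main :
    (∃ M : Model, iIndepFun M.f M.P ∧ (∀ i j, IdentDistrib (M.f i) (M.f j) M.P M.P) ∧
      (∀ i, IndepFun M.b (M.f i) M.P) ∧ M.Gap ∧ ¬ M.MezardParisi) ∧
    (∃ M : Model, IndepFun M.b (fun ω i => M.f i ω) M.P ∧ iIndepFun M.f M.P ∧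
      M.Gap ∧ ¬ M.MezardParisi) ∧
    (∃ M : Model, IndepFun M.b (fun ω i => M.f i ω) M.P ∧
      (∀ e : Equiv.Perm (Fin M.K),
        IdentDistrib (fun ω i => M.f i ω) (fun ω i => M.f (e i) ω) M.P M.P) ∧
      M.Gap ∧ ¬ M.MezardParisi) :=
  ⟨⟨modelA, modelA_iIndep, modelA_ident, modelA_pair, gapA, gapA.not_mezardParisi⟩,
    ⟨modelB, modelB_indep, modelB_iIndep, gapB, gapB.not_mezardParisi⟩,
    ⟨modelC, modelC_indep, modelC_exch, gapC, gapC.not_mezardParisi⟩⟩

end Vale.Agent.P168
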